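import Vale.Agent.P223U.Defs
import Vale.Agent.P223D.Jd
import Vale.Agent.P366D.Base

/-!
# P223Z: `ZC 0`, the closed curve (helper85)
-/

open MeasureTheory Filter Topology Set
open scoped ContDiff
open Vale.Agent.P366M Vale.Agent.P210G Vale.Agent.P223U

noncomputable section

namespace Vale.Agent.P223Z

theorem Bmp.bdd {r : ℝ} {ψ : ℝ → ℝ} (h : Bmp r ψ) : ∃ B ≥ (0 : ℝ), ∀ t, ψ t ≤ B := by
  obtain ⟨B, hB⟩ := (isCompact_Icc (a := -|r|) (b := |r|)).exists_bound_of_continuousOn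
    h.cont.continuousOn
  refine ⟨max B 0, le_max_right _ _, fun t => ?_⟩
  by_cases ht : r ≤ |t|
  · rw [h.supp t ht]; exact le_max_right _ _
  · exact ((le_abs_self _).trans (hB t (abs_le.1 ((not_le.1 ht).le.trans
      (le_abs_self r))))).trans (le_max_left _ _)

theorem cont_Ph (s T : ℝ) : Continuous (Ph s T) := by unfold Ph; fun_prop

theorem lin_le_Ph {s : ℝ} (hs : 0 < s) (y : ℝ) :
    1 - 2 * y ≤ 2 * Real.exp (s / 2) / s * Ph s (1 / 2) y := by
  have h1 : s * (1 / 2 - y) + 1 ≤ Real.exp (s * (1 / 2 - y)) := Real.add_one_le_exp _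
  have h2 : Real.exp (s / 2) * Real.exp (-s * y) = Real.exp (s * (1 / 2 - y)) := by
    rw [← Real.exp_add]; congr 1; ring
  have h3 : Real.exp (s / 2) * Real.exp (-s * (1 / 2)) = 1 := by
    rw [← Real.exp_add, show s / 2 + -s * (1 / 2) = 0 by ring, Real.exp_zero]
  have h4 := mul_le_mul_of_nonneg_left (le_max_left (Real.exp (-s * y) - Real.exp (-s * (1 / 2))) 0)
    (Real.exp_pos (s / 2)).le
  rw [div_mul_eq_mul_div, le_div_iff₀ hs, Ph]
  nlinarith

/-- **ZC 0** -/
theorem zc_zero : ZC 0 := by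
  intro s hs r ψ hψ _
  obtain ⟨B, B0, hB⟩ := Bmp.bdd hψ
  refine ⟨2, 1 / 2, B * (2 * Real.exp (s / 2) / s), by positivity, fun A hA m _ L _ => ⟨0, ?_⟩⟩
  intro Γ hΓ Z _ γ β l p α D W w h V h₁ H δ hδ
  have hg := H.ok.met
  have hU : {z | w z ≤ 11 / 8} = univ := eq_univ_of_forall fun z => (H.zero rfl z).trans (by norm_num)
  have : CompactSpace Z := ⟨hU ▸ H.cpt⟩
  have := hg.locFin
  have hb := fun z => H.bd z ((H.zero rfl z).trans (by norm_num))
  refine ⟨D, H.smD, fun z hz => absurd (H.zero rfl z) (by linarith),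
    fun z _ => ⟨1, le_rfl, fun j => (one_mul _).symm⟩, ?_⟩
  have cl := H.ok.sml.cont
  have cp := H.smp.cont
  have l0 : ∀ z, l z ^ 2 ≠ 0 := fun z => (pow_pos (H.ok.l0 z) 2).ne'
  have ci : Continuous fun z => A / l z ^ 2 := continuous_const.div (cl.pow 2) l0
  have it : ∀ {F : Z → ℝ}, Continuous F → Integrable F (vol γ) := fun hF =>
    hg.integrable_supp hF (HasCompactSupport.of_compactSpace _)
  have sq : Smooth fun z => √(p z) := CD.sqrt H.smp fun z => (H.p0 z).ne'
  have sp := spec_of_Rv (θ := 0) (O := univ) hg H.ok.cc H.cV (by norm_num) (fun z _ => by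
    have := mul_nonneg hΓ (div_nonneg (sub_nonneg.2 (H.W1 z)) (zero_le_one.trans (H.W1 z)))
    have := (hb z).1
    nlinarith [sq_nonneg (gn γ W z / W z)]) _ sq (HasCompactSupport.of_compactSpace _) (subset_univ _)
  have c1 : Continuous fun z => Ph s (1 / 2) (V z - A / l z ^ 2) * p z ^ (0 + 1) :=
    ((cont_Ph _ _).comp (H.cV.sub ci)).mul (cp.pow _)
  have i1 := spec_int hg H.cV sq (HasCompactSupport.of_compactSpace _) (4 / (1 + 0))
  have key : ∀ z, (∏ j, ψ (D j z)) * |P223Y.Jd γ D z| ≤ B * (2 * Real.exp (s / 2) / s) *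
      (Ph s (1 / 2) (V z - A / l z ^ 2) * p z ^ (0 + 1)) - 2 * B * (4 / (1 + 0) *
        ip γ (fun z => √(p z)) (fun z => √(p z)) z + (scal γ z - V z) * √(p z) ^ 2) := fun z => by
    have p0 := H.p0 z
    have l1 := H.ok.l0 z
    have d := Real.hasDerivAt_sqrt p0.ne'
    have e1 : 4 / (1 + 0) * ip γ (fun z => √(p z)) (fun z => √(p z)) z = gn γ p z ^ 2 / p z := by
      rw [ip_comp d d (H.smp.diff z) (H.smp.diff z), hg.gn_sq]
      have := Real.sq_sqrt p0.le
      have := (Real.sqrt_pos.2 p0).ne'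
      field_simp
      rw [Real.sq_sqrt p0.le]; ring
    have e2 : gn γ p z ^ 2 / p z ≤ p z * (1 / l z ^ 2) := by
      have := pow_le_pow_left₀ (mul_nonneg l1.le (gn_nonneg γ p z)) (hb z).2.2.2.2.2.1 2
      rw [mul_one_div, div_le_div_iff₀ p0 (by positivity)]
      nlinarith
    have e3 : (∏ j, ψ (D j z)) * |P223Y.Jd γ D z| ≤ B * (p z * (1 + A / l z ^ 2)) := by
      refine mul_le_mul ?_ ((P223D.abs_Jd_le hg D z).trans ?_) (abs_nonneg _) B0
      · rw [Fin.prod_univ_succ, Fin.prod_univ_zero, mul_one]; exact hB _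
      · rw [Fin.prod_univ_succ, Fin.prod_univ_zero, mul_one]; exact ((hb z).2.2.2.2.2.2 0).2
    have e4 := mul_le_mul_of_nonneg_right (lin_le_Ph hs (V z - A / l z ^ 2)) p0.le
    have e5 : 2 * (1 / l z ^ 2) ≤ A / l z ^ 2 := by
      rw [mul_one_div]; exact div_le_div_of_nonneg_right hA (by positivity)
    have e6 := mul_le_mul_of_nonneg_left e5 p0.le
    rw [e1, P366D.scal_one, Real.sq_sqrt p0.le, show p z ^ (0 + 1) = p z from pow_one _]
    refine e3.trans ?_
    have := mul_le_mul_of_nonneg_left (show p z * (1 + A / l z ^ 2) ≤ 2 * Real.exp (s / 2) / s *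
      Ph s (1 / 2) (V z - A / l z ^ 2) * p z - 2 * (gn γ p z ^ 2 / p z + (0 - V z) * p z) by
        nlinarith) B0
    linarith
  have c2 : Continuous fun z => (∏ j, ψ (D j z)) * |P223Y.Jd γ D z| :=
    (continuous_finsetProd _ fun j _ => hψ.cont.comp (H.smD j).cont).mul
      (P223D.cont_abs_Jd hg H.smD)
  have k1 := integral_mono (it c2) (((it c1).const_mul _).sub (i1.const_mul _)) key
  rw [integral_sub' ((it c1).const_mul _) (i1.const_mul _), integral_const_mul,
    integral_const_mul] at k1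
  have k2 := setIntegral_le_integral (s := {z | w z ≤ 5 / 4 ∧ 1 / 2 ≤ α z}) (it c2)
    (.of_forall fun z => mul_nonneg (Finset.prod_nonneg fun j _ => hψ.nn _) (abs_nonneg _))
  rw [Cst, Ms, hU, Measure.restrict_univ]
  nlinarith [mul_nonneg B0 sp]

end Vale.Agent.P223Z
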